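import Vale.Agent.P338.R2.H321.Bp.Elem

/-!
P338, stage 3: the cost of the passes on the elements of the ring.
-/

namespace Vale.Agent.P338.R2.H321.Bp

open H784.Bp
open H898
open H898.XP

variable {mR : ER → ℕ}

/-- The cost of a pass over `N` blocks. -/
theorem bd_block {N a P R c : ℕ} (hc : 1 ≤ c) (h1 : 1 ≤ 2 * P + R)
    (ha : a + 2 ≤ (12 * P + 7 * R + 10) * c) :
    N * (a + 2) + 2 ≤ 20 * (N * (2 * P + R)) * c + 20 * c := by
  have h2 : a + 2 ≤ 20 * (2 * P + R) * c := by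
    refine le_trans ha (Nat.mul_le_mul_right _ ?_)
    omega
  have h3 : N * (a + 2) ≤ N * (20 * (2 * P + R) * c) := Nat.mul_le_mul_left _ h2
  have h4 : N * (20 * (2 * P + R) * c) = 20 * (N * (2 * P + R)) * c := by ring
  omega

theorem bd_preX (c : ℕ) (hc : 1 ≤ c) (h1 : 1 ≤ 2 * mR .P + mR .R) :
    bd mR (fun _ => c) preX ≤ 20 * (mR .N * (2 * mR .P + mR .R)) * c + 20 * c := by
  have h : bd mR (fun _ => c) preX = mR .N * (c + (c + (mR .P * (c + (c + (c + (c + c))) + 2) + 2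
      + (mR .P * (c + 2) + 2 + (mR .R * (c + 2) + 2)))) + 2) + 2 := rfl
  rw [h]
  refine bd_block hc h1 ?_
  obtain ⟨c, rfl⟩ : ∃ c', c = c' + 1 := ⟨c - 1, by omega⟩
  ring_nf
  omega

theorem bd_pre2X (c : ℕ) (hc : 1 ≤ c) (h1 : 1 ≤ 2 * mR .P + mR .R) :
    bd mR (fun _ => c) pre2X ≤ 20 * (mR .N * (2 * mR .P + mR .R)) * c + 20 * c := by
  have h : bd mR (fun _ => c) pre2X = mR .N * (c + (c + (mR .P * (c + (c + (c + (c + (c +
      (c + c))))) + 2) + 2 + (mR .P * (c + 2) + 2 + (mR .R * (c + 2) + 2)))) + 2) + 2 := rfl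
  rw [h]
  refine bd_block hc h1 ?_
  obtain ⟨c, rfl⟩ : ∃ c', c = c' + 1 := ⟨c - 1, by omega⟩
  ring_nf
  omega

theorem bd_postX (c : ℕ) (hc : 1 ≤ c) (h1 : 1 ≤ 2 * mR .P + mR .R) :
    bd mR (fun _ => c) postX ≤ 20 * (mR .N * (2 * mR .P + mR .R)) * c + 20 * c := by
  have h : bd mR (fun _ => c) postX = mR .N * (mR .P * (c + 2) + 2 + (c + (c +
      (mR .R * (c + (c + (c + (c + c))) + 2) + 2 + (mR .P * (c + 2) + 2)))) + 2) + 2 := rfl
  rw [h]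
  refine bd_block hc h1 ?_
  obtain ⟨c, rfl⟩ : ∃ c', c = c' + 1 := ⟨c - 1, by omega⟩
  ring_nf
  omega

theorem bd_kerX (c : ℕ) (hc : 1 ≤ c) :
    bd mR (fun _ => c) kerX ≤ 20 * (2 * mR .P + mR .R) * c + 20 * c := by
  have h : bd mR (fun _ => c) kerX = c + (c + (c + (mR .P * (c + (c + c) + 2) + 2 + (c +
      (mR .P * (c + (c + c) + 2) + 2 + (mR .R * (c + (c + c) + 2) + 2)))))) := rfl
  rw [h]
  obtain ⟨c, rfl⟩ : ∃ c', c = c' + 1 := ⟨c - 1, by omega⟩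
  ring_nf
  omega

end Vale.Agent.P338.R2.H321.Bp
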