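import Vale.Agent.P338.R2.H321.Bp.Elem

/-!
P338, stage 3: evaluation of the passes on the elements of the ring.
-/

namespace Vale.Agent.P338.R2.H321.Bp

open H778 (val bits slots)
open H525 (slotAt zeros)
open H525.Fp (tri mmN)
open H784.Bp
open H898 hiding val
open H898.XP
open Function (update)

variable {b L m : ℕ} {mR : ER → ℕ} {z : List Bool}

/-- Reading the slot number `t`. -/
theorem eval_slot (i : EV) (v : ER → ℕ) (t : ℕ) (o : List Bool) (u : EV → ℕ)
    (h : (t + 1) * b ≤ z.length) :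
    eval mR z false (wsem b L m (2 ^ b / m + 1)) (ext (.rd i)) ⟨v, t * b, o, u⟩ =
      ⟨v, (t + 1) * b, o, update u i (val (slotAt b z t))⟩ := by
  rw [XP.eval_rd _ _ (by
    show t * b + b ≤ z.length
    calc t * b + b = (t + 1) * b := by ring
      _ ≤ _ := h)]
  simp only [slotAt, XS.mk.injEq, true_and, and_true]
  ring

/-- The bound for the position of a slot. -/
theorem slot_le {N P v i c : ℕ} (hv : v < N) (hi : i < P) (h : N * P * b ≤ c) :
    (v * P + i + 1) * b ≤ c := by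
  refine le_trans (Nat.mul_le_mul_right _ ?_) h
  calc v * P + i + 1 ≤ v * P + P := by omega
    _ = (v + 1) * P := by ring
    _ ≤ N * P := Nat.mul_le_mul_right _ hv

theorem slot_lt {N P v i : ℕ} (hv : v < N) (hi : i < P) : v * P + i < N * P := by
  calc v * P + i < v * P + P := by omega
    _ = (v + 1) * P := by ring
    _ ≤ N * P := Nat.mul_le_mul_right _ hv

theorem flatMap_range_succ {α : Type} (f : ℕ → List α) (n : ℕ) :
    (List.range (n + 1)).flatMap f = (List.range n).flatMap f ++ f n := by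
  rw [List.range_succ, List.flatMap_append]
  simp

/-- The elements of a vector. -/
theorem eval_preRow (hm : 1 < m) (u : EV → ℕ) (hr : u .r < m) (hb : m * m * m < 2 ^ b)
    {v0 N : ℕ} (hv0 : v0 < N)
    (hz : N * mR .P * b ≤ z.length)
    (hs : ∀ t < N * mR .P, val (slotAt b z t) * m * m < 2 ^ b)
    (v : ER → ℕ) (hP : v .P = 0) (o : List Bool) (x y : ℕ) :
    ∃ x' y' c' s', eval mR z false (wsem b L m (2 ^ b / m + 1))
      (loop .P (seq (ext (.rd .x)) (seq (ext (.mul .x .x .c)) (seq (ext (.wr .x))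
      (seq (ext (.mul .c .c .s)) (ext (.mul .s .s .r)))))))
      ⟨v, v0 * mR .P * b, o, reg u x y 1 (u .r)⟩ =
      ⟨v, (v0 + 1) * mR .P * b, o ++ (List.range (mR .P)).flatMap (fun i =>
        bits b (preN m (u .r) (val (slotAt b z (v0 * mR .P + i))) i)), reg u x' y' c' s'⟩ := by
  have hm1 : 1 ≤ m := hm.le
  obtain ⟨x', ⟨x1, y1, hx'⟩, h⟩ := eval_loop_ex (m := mR) (w := z) (e := false)
    (S := wsem b L m (2 ^ b / m + 1)) (r := .P)
    (a := seq (ext (.rd .x)) (seq (ext (.mul .x .x .c)) (seq (ext (.wr .x))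
      (seq (ext (.mul .c .c .s)) (ext (.mul .s .s .r))))))
    v hP (fun i X => ∃ x y, X = reg u x y (u .r ^ tri (i + 1) % m) (u .r ^ (i + 1) % m))
    (fun i => (v0 * mR .P + i) * b)
    (fun i => o ++ (List.range i).flatMap (fun i =>
        bits b (preN m (u .r) (val (slotAt b z (v0 * mR .P + i))) i)))
    (by
      rintro i hi _ ⟨x, y, rfl⟩
      refine ⟨_, ⟨preN m (u .r) (val (slotAt b z (v0 * mR .P + i))) i, y, rfl⟩, ?_⟩
      have hlt : ∀ k, u .r ^ k % m < m := fun k => Nat.mod_lt _ (by omega)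
      rw [XP.eval_seq, eval_slot _ _ _ _ _ (slot_le hv0 hi hz), XP.eval_seq, XP.eval_mul,
        XP.eval_seq, XP.eval_wr, XP.eval_seq, XP.eval_mul, XP.eval_mul]
      dsimp only
      simp only [reg_ux, reg_uc, reg_us, reg_x, reg_c, reg_s, reg_r]
      rw [mm hm1 (hs _ (slot_lt hv0 hi)) (hlt _).le, mm' hm1 hb (hlt _).le (hlt _).le,
        mm' hm1 hb (hlt _).le hr.le, flatMap_range_succ]
      have e1 : u .r ^ tri (i + 1) % m * (u .r ^ (i + 1) % m) % m =
          u .r ^ tri (i + 1 + 1) % m := by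
        rw [pow_step, tri_succ (i + 1)]
      have e2 : u .r ^ (i + 1) % m * u .r % m = u .r ^ (i + 1 + 1) % m := by
        rw [Nat.mod_mul_mod, ← pow_succ]
      rw [e1, e2, List.append_assoc]
      rfl)
    (reg u x y 1 (u .r)) ⟨x, y, by
      rw [zero_add, tri_one, pow_zero, pow_one, Nat.mod_eq_of_lt hm, Nat.mod_eq_of_lt hr]⟩
  refine ⟨x1, y1, u .r ^ tri (mR .P + 1) % m, u .r ^ (mR .P + 1) % m, ?_⟩
  subst hx'
  have e3 : (v0 + 1) * mR .P * b = (v0 * mR .P + mR .P) * b := by ring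
  have e4 : v0 * mR .P * b = (v0 * mR .P + 0) * b := by ring
  rw [e3, e4]
  simpa using h

/-- **First pass of a transform.** -/
theorem eval_preX (hm : 1 < m) (hb : m * m * m < 2 ^ b) (u : EV → ℕ) (hr : u .r < m)
    (ho : u .o = 0) (hz : mR .N * mR .P * b ≤ z.length)
    (hs : ∀ t < mR .N * mR .P, val (slotAt b z t) * m * m < 2 ^ b) :
    ∃ u1, (∀ i, i ∉ scE → u1 i = u i) ∧
      eval mR z false (wsem b L m (2 ^ b / m + 1)) preX ⟨fun _ => 0, 0, [], u⟩ =
        ⟨fun _ => 0, mR .N * mR .P * b, preB b (mR .P) (mR .R) m (u .r) (mR .N) z, u1⟩ := by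
  obtain ⟨x', ⟨x1, y1, c1, s1, hx'⟩, h⟩ := eval_loop_ex (m := mR) (w := z) (e := false)
    (S := wsem b L m (2 ^ b / m + 1)) (r := .N)
    (a := seq (ext (.one .c)) (seq (ext (.cp .s .r)) (seq
    (loop .P (seq (ext (.rd .x)) (seq (ext (.mul .x .x .c)) (seq (ext (.wr .x))
      (seq (ext (.mul .c .c .s)) (ext (.mul .s .s .r))))))) zerX)))
    (fun _ => 0) rfl (fun _ X => ∃ x y c s, X = reg u x y c s)
    (fun v => v * mR .P * b)
    (fun n => (List.range n).flatMap fun v =>
    ((List.range (mR .P)).flatMap fun i =>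
      bits b (preN m (u .r) (val (slotAt b z (v * mR .P + i))) i)) ++
      zeros ((mR .P + mR .R) * b))
    (by
      rintro v hv _ ⟨x, y, c, s, rfl⟩
      rw [XP.eval_seq, XP.eval_one, XP.eval_seq, XP.eval_cp, XP.eval_seq]
      dsimp only
      simp only [reg_us, reg_uc, reg_r]
      obtain ⟨x2, y2, c2, s2, h2⟩ := eval_preRow (L := L) hm u hr hb hv hz hs
        (update (fun _ => 0) .N v) (by simp)
        ((List.range v).flatMap fun v =>
          ((List.range (mR .P)).flatMap fun i =>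
            bits b (preN m (u .r) (val (slotAt b z (v * mR .P + i))) i)) ++
            zeros ((mR .P + mR .R) * b)) x y
      refine ⟨reg u x2 y2 c2 s2, ⟨x2, y2, c2, s2, rfl⟩, ?_⟩
      rw [h2, eval_zerX _ (by simpa using ho) _ (by simp) (by simp), flatMap_range_succ,
        List.append_assoc])
    u ⟨u .x, u .y, u .c, u .s, (reg_self u).symm⟩
  refine ⟨x', fun i hi => by rw [hx', reg_out _ _ _ _ _ hi], ?_⟩
  simpa [preX, preB, stepX, zerX] using h

/-- Skipping `P` elements. -/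
theorem eval_rdP (u : EV → ℕ) {v0 M : ℕ} (hz : M * b ≤ z.length) (h0 : v0 + mR .P ≤ M)
    (v : ER → ℕ) (hP : v .P = 0) (o : List Bool) (x y c s : ℕ) :
    ∃ x', eval mR z false (wsem b L m (2 ^ b / m + 1)) (loop .P (ext (.rd .x)))
      ⟨v, v0 * b, o, reg u x y c s⟩ = ⟨v, (v0 + mR .P) * b, o, reg u x' y c s⟩ := by
  obtain ⟨x', ⟨x1, hx'⟩, h⟩ := eval_loop_ex (m := mR) (w := z) (e := false)
    (S := wsem b L m (2 ^ b / m + 1)) (r := .P) (a := ext (.rd .x))
    v hP (fun _ X => ∃ x, X = reg u x y c s) (fun i => (v0 + i) * b) (fun _ => o)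
    (by
      rintro i hi _ ⟨x, rfl⟩
      refine ⟨_, ⟨val (slotAt b z (v0 + i)), rfl⟩, ?_⟩
      rw [eval_slot _ _ _ _ _ (le_trans (Nat.mul_le_mul_right _ (by omega)) hz), reg_ux]
      rfl)
    (reg u x y c s) ⟨x, rfl⟩
  refine ⟨x1, ?_⟩
  subst hx'
  simpa using h

/-- The elements of a vector. -/
theorem eval_postRow (hm : 1 < m) (u : EV → ℕ) (hr : u .r < m) (hb : m * m * m < 2 ^ b)
    {v0 M : ℕ} (h0 : v0 + mR .R ≤ M) (hz : M * b ≤ z.length)
    (hs : ∀ t < mR .R, val (slotAt b z (v0 + t)) * m * m < 2 ^ b)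
    (v : ER → ℕ) (hR : v .R = 0) (o : List Bool) (x y : ℕ) :
    ∃ x' y' c' s', eval mR z false (wsem b L m (2 ^ b / m + 1))
      (loop .R (seq (ext (.rd .x)) (seq (ext (.mul .x .x .c)) (seq (ext (.wr .x))
      (seq (ext (.mul .c .c .s)) (ext (.mul .s .s .r)))))))
      ⟨v, v0 * b, o, reg u x y 1 1⟩ =
      ⟨v, (v0 + mR .R) * b, o ++ (List.range (mR .R)).flatMap (fun k =>
        bits b (val (slotAt b z (v0 + k)) * (u .r ^ tri k % m) % m)), reg u x' y' c' s'⟩ := by
  have hm1 : 1 ≤ m := hm.le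
  obtain ⟨x', ⟨x1, y1, hx'⟩, h⟩ := eval_loop_ex (m := mR) (w := z) (e := false)
    (S := wsem b L m (2 ^ b / m + 1)) (r := .R)
    (a := seq (ext (.rd .x)) (seq (ext (.mul .x .x .c)) (seq (ext (.wr .x))
      (seq (ext (.mul .c .c .s)) (ext (.mul .s .s .r))))))
    v hR (fun i X => ∃ x y, X = reg u x y (u .r ^ tri i % m) (u .r ^ i % m))
    (fun i => (v0 + i) * b)
    (fun i => o ++ (List.range i).flatMap (fun k =>
        bits b (val (slotAt b z (v0 + k)) * (u .r ^ tri k % m) % m)))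
    (by
      rintro i hi _ ⟨x, y, rfl⟩
      refine ⟨_, ⟨val (slotAt b z (v0 + i)) * (u .r ^ tri i % m) % m, y, rfl⟩, ?_⟩
      have hlt : ∀ k, u .r ^ k % m < m := fun k => Nat.mod_lt _ (by omega)
      rw [XP.eval_seq, eval_slot _ _ _ _ _ (le_trans (Nat.mul_le_mul_right _ (by omega)) hz),
        XP.eval_seq, XP.eval_mul,
        XP.eval_seq, XP.eval_wr, XP.eval_seq, XP.eval_mul, XP.eval_mul]
      dsimp only
      simp only [reg_ux, reg_uc, reg_us, reg_x, reg_c, reg_s, reg_r]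
      rw [mm hm1 (hs _ hi) (hlt _).le, mm' hm1 hb (hlt _).le (hlt _).le,
        mm' hm1 hb (hlt _).le hr.le, flatMap_range_succ]
      have e1 : u .r ^ tri i % m * (u .r ^ i % m) % m = u .r ^ tri (i + 1) % m := by
        rw [pow_step, tri_succ i]
      have e2 : u .r ^ i % m * u .r % m = u .r ^ (i + 1) % m := by
        rw [Nat.mod_mul_mod, ← pow_succ]
      rw [e1, e2, List.append_assoc]
      rfl)
    (reg u x y 1 1) ⟨x, y, by
      rw [tri_zero, pow_zero, Nat.mod_eq_of_lt hm]⟩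
  refine ⟨x1, y1, u .r ^ tri (mR .R) % m, u .r ^ mR .R % m, ?_⟩
  subst hx'
  simpa using h

/-- **Last pass of a transform.** -/
theorem eval_postX (hm : 1 < m) (hb : m * m * m < 2 ^ b) (u : EV → ℕ) (hr : u .r < m)
    (hz : mR .N * (2 * mR .P + mR .R) * b ≤ z.length)
    (hs : ∀ v < mR .N, ∀ k < mR .R,
      val (slotAt b z (v * (2 * mR .P + mR .R) + mR .P + k)) * m * m < 2 ^ b) :
    ∃ u1, (∀ i, i ∉ scE → u1 i = u i) ∧
      eval mR z false (wsem b L m (2 ^ b / m + 1)) postX ⟨fun _ => 0, 0, [], u⟩ =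
        ⟨fun _ => 0, mR .N * (2 * mR .P + mR .R) * b,
          postB b (mR .P) (mR .R) m (u .r) (mR .N) z, u1⟩ := by
  obtain ⟨x', ⟨x1, y1, c1, s1, hx'⟩, h⟩ := eval_loop_ex (m := mR) (w := z) (e := false)
    (S := wsem b L m (2 ^ b / m + 1)) (r := .N)
    (a := seq (loop .P (ext (.rd .x))) (seq (ext (.one .c)) (seq (ext (.one .s)) (seq
    (loop .R (seq (ext (.rd .x)) (seq (ext (.mul .x .x .c)) (seq (ext (.wr .x))
      (seq (ext (.mul .c .c .s)) (ext (.mul .s .s .r)))))))
    (loop .P (ext (.rd .x)))))))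
    (fun _ => 0) rfl (fun _ X => ∃ x y c s, X = reg u x y c s)
    (fun v => v * (2 * mR .P + mR .R) * b)
    (fun n => (List.range n).flatMap fun v => (List.range (mR .R)).flatMap fun k =>
      bits b (val (slotAt b z (v * (2 * mR .P + mR .R) + mR .P + k)) *
        (u .r ^ tri k % m) % m))
    (by
      rintro v hv _ ⟨x, y, c, s, rfl⟩
      have hle : v * (2 * mR .P + mR .R) + (2 * mR .P + mR .R) ≤
          mR .N * (2 * mR .P + mR .R) := by
        calc v * (2 * mR .P + mR .R) + (2 * mR .P + mR .R) =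
            (v + 1) * (2 * mR .P + mR .R) := by ring
          _ ≤ _ := Nat.mul_le_mul_right _ hv
      obtain ⟨x2, h2⟩ := eval_rdP (m := m) (L := L) (mR := mR) (z := z) (b := b) u
        (v0 := v * (2 * mR .P + mR .R)) hz (by omega) (update (fun _ => 0) .N v) (by simp)
        ((List.range v).flatMap fun v => (List.range (mR .R)).flatMap fun k =>
          bits b (val (slotAt b z (v * (2 * mR .P + mR .R) + mR .P + k)) *
          (u .r ^ tri k % m) % m)) x y c s
      obtain ⟨x3, y3, c3, s3, h3⟩ := eval_postRow (L := L) (mR := mR) (z := z) hm u hr hb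
        (v0 := v * (2 * mR .P + mR .R) + mR .P) (M := mR .N * (2 * mR .P + mR .R))
        (by omega) hz (hs v hv) (update (fun _ => 0) .N v) (by simp)
        ((List.range v).flatMap fun v => (List.range (mR .R)).flatMap fun k =>
          bits b (val (slotAt b z (v * (2 * mR .P + mR .R) + mR .P + k)) *
          (u .r ^ tri k % m) % m)) x2 y
      obtain ⟨x4, h4⟩ := eval_rdP (m := m) (L := L) (mR := mR) (z := z) (b := b) u
        (v0 := v * (2 * mR .P + mR .R) + mR .P + mR .R) hz (by omega)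
        (update (fun _ => 0) .N v) (by simp)
        (((List.range v).flatMap fun v => (List.range (mR .R)).flatMap fun k =>
          bits b (val (slotAt b z (v * (2 * mR .P + mR .R) + mR .P + k)) *
          (u .r ^ tri k % m) % m)) ++ (List.range (mR .R)).flatMap fun k =>
          bits b (val (slotAt b z (v * (2 * mR .P + mR .R) + mR .P + k)) *
          (u .r ^ tri k % m) % m)) x3 y3 c3 s3
      refine ⟨reg u x4 y3 c3 s3, ⟨x4, y3, c3, s3, rfl⟩, ?_⟩
      rw [XP.eval_seq, h2, XP.eval_seq, XP.eval_one, XP.eval_seq, XP.eval_one, XP.eval_seq]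
      dsimp only
      simp only [reg_us, reg_uc]
      rw [h3, h4, flatMap_range_succ,
        show (v + 1) * (2 * mR .P + mR .R) = v * (2 * mR .P + mR .R) + mR .P + mR .R +
          mR .P by ring])
    u ⟨u .x, u .y, u .c, u .s, (reg_self u).symm⟩
  refine ⟨x', fun i hi => by rw [hx', reg_out _ _ _ _ _ hi], ?_⟩
  simpa [postX, postB, stepX] using h

/-- The elements of a vector. -/
theorem eval_pre2Row (hm : 1 < m) (u : EV → ℕ) (hr : u .r < m) (hi : u .iv < m)
    (hb : m * m * m < 2 ^ b) {v0 N : ℕ} (hv0 : v0 < N)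
    (hz : 2 * (N * mR .P) * b ≤ z.length)
    (hs : ∀ t < 2 * (N * mR .P), val (slotAt b z t) ≤ m)
    (v : ER → ℕ) (hP : v .P = 0) (o : List Bool) (x y : ℕ) :
    ∃ x' y' c' s', eval mR z false (wsem b L m (2 ^ b / m + 1))
      (loop .P (seq (ext (.rd .x)) (seq (ext (.rd .y)) (seq (ext (.mul .x .x .y))
      (seq (ext (.mul .x .x .c)) (seq (ext (.wr .x))
        (seq (ext (.mul .c .c .s)) (ext (.mul .s .s .r)))))))))
      ⟨v, 2 * (v0 * mR .P) * b, o, reg u x y (u .iv) (u .r)⟩ =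
      ⟨v, 2 * ((v0 + 1) * mR .P) * b, o ++ (List.range (mR .P)).flatMap (fun k => bits b
        (val (slotAt b z (2 * (v0 * mR .P + k))) *
          val (slotAt b z (2 * (v0 * mR .P + k) + 1)) % m *
        (u .iv * (u .r ^ tri (k + 1) % m) % m) % m)), reg u x' y' c' s'⟩ := by
  have hm1 : 1 ≤ m := hm.le
  obtain ⟨x', ⟨x1, y1, hx'⟩, h⟩ := eval_loop_ex (m := mR) (w := z) (e := false)
    (S := wsem b L m (2 ^ b / m + 1)) (r := .P)
    (a := seq (ext (.rd .x)) (seq (ext (.rd .y)) (seq (ext (.mul .x .x .y))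
      (seq (ext (.mul .x .x .c)) (seq (ext (.wr .x))
        (seq (ext (.mul .c .c .s)) (ext (.mul .s .s .r))))))))
    v hP (fun i X => ∃ x y, X = reg u x y (u .iv * (u .r ^ tri (i + 1) % m) % m)
      (u .r ^ (i + 1) % m))
    (fun i => 2 * (v0 * mR .P + i) * b)
    (fun i => o ++ (List.range i).flatMap (fun k => bits b
        (val (slotAt b z (2 * (v0 * mR .P + k))) *
          val (slotAt b z (2 * (v0 * mR .P + k) + 1)) % m *
        (u .iv * (u .r ^ tri (k + 1) % m) % m) % m)))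
    (by
      rintro i hi _ ⟨x, y, rfl⟩
      refine ⟨_, ⟨val (slotAt b z (2 * (v0 * mR .P + i))) *
          val (slotAt b z (2 * (v0 * mR .P + i) + 1)) % m *
        (u .iv * (u .r ^ tri (i + 1) % m) % m) % m,
        val (slotAt b z (2 * (v0 * mR .P + i) + 1)), rfl⟩, ?_⟩
      have hlt : ∀ k, k % m < m := fun k => Nat.mod_lt _ (by omega)
      have h1 := slot_lt hv0 hi
      rw [XP.eval_seq, eval_slot _ _ _ _ _ (le_trans (Nat.mul_le_mul_right _ (by omega)) hz),
        XP.eval_seq, eval_slot _ _ _ _ _ (le_trans (Nat.mul_le_mul_right _ (by omega)) hz),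
        XP.eval_seq, XP.eval_mul, XP.eval_seq, XP.eval_mul,
        XP.eval_seq, XP.eval_wr, XP.eval_seq, XP.eval_mul, XP.eval_mul]
      dsimp only
      simp only [reg_ux, reg_uy, reg_uc, reg_us, reg_x, reg_y, reg_c, reg_s, reg_r]
      rw [mm' hm1 hb (hs _ (by omega)) (hs _ (by omega)),
        mm' hm1 hb (hlt _).le (hlt _).le, mm' hm1 hb (hlt _).le (hlt _).le,
        mm' hm1 hb (hlt _).le hr.le, flatMap_range_succ]
      have e1 : u .iv * (u .r ^ tri (i + 1) % m) % m * (u .r ^ (i + 1) % m) % m =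
          u .iv * (u .r ^ tri (i + 1 + 1) % m) % m := by
        rw [Nat.mod_mul_mod, mul_assoc, Nat.mul_mod, pow_step, tri_succ (i + 1),
          ← Nat.mul_mod_mod, Nat.mod_mod, Nat.mod_mul_mod]
      have e2 : u .r ^ (i + 1) % m * u .r % m = u .r ^ (i + 1 + 1) % m := by
        rw [Nat.mod_mul_mod, ← pow_succ]
      rw [e1, e2, List.append_assoc]
      congr 1)
    (reg u x y (u .iv) (u .r)) ⟨x, y, by
      rw [zero_add, tri_one, pow_zero, pow_one, Nat.mod_eq_of_lt hm, mul_one,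
        Nat.mod_eq_of_lt hi, Nat.mod_eq_of_lt hr]⟩
  refine ⟨x1, y1, u .iv * (u .r ^ tri (mR .P + 1) % m) % m, u .r ^ (mR .P + 1) % m, ?_⟩
  subst hx'
  have e3 : 2 * ((v0 + 1) * mR .P) * b = 2 * (v0 * mR .P + mR .P) * b := by ring
  rw [e3]
  simpa using h

/-- **Products and first pass of the inverse transform.** -/
theorem eval_pre2X (hm : 1 < m) (hb : m * m * m < 2 ^ b) (u : EV → ℕ) (hr : u .r < m)
    (hi : u .iv < m) (ho : u .o = 0) (hz : 2 * (mR .N * mR .P) * b ≤ z.length)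
    (hs : ∀ t < 2 * (mR .N * mR .P), val (slotAt b z t) ≤ m) :
    ∃ u1, (∀ i, i ∉ scE → u1 i = u i) ∧
      eval mR z false (wsem b L m (2 ^ b / m + 1)) pre2X ⟨fun _ => 0, 0, [], u⟩ =
        ⟨fun _ => 0, 2 * (mR .N * mR .P) * b,
          pre2B b (mR .P) (mR .R) m (u .r) (u .iv) (mR .N) z, u1⟩ := by
  obtain ⟨x', ⟨x1, y1, c1, s1, hx'⟩, h⟩ := eval_loop_ex (m := mR) (w := z) (e := false)
    (S := wsem b L m (2 ^ b / m + 1)) (r := .N)
    (a := seq (ext (.cp .c .iv)) (seq (ext (.cp .s .r)) (seq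
    (loop .P (seq (ext (.rd .x)) (seq (ext (.rd .y)) (seq (ext (.mul .x .x .y))
      (seq (ext (.mul .x .x .c)) (seq (ext (.wr .x))
        (seq (ext (.mul .c .c .s)) (ext (.mul .s .s .r))))))))) zerX)))
    (fun _ => 0) rfl (fun _ X => ∃ x y c s, X = reg u x y c s)
    (fun v => 2 * (v * mR .P) * b)
    (fun n => (List.range n).flatMap fun v =>
    ((List.range (mR .P)).flatMap fun k => bits b
      (val (slotAt b z (2 * (v * mR .P + k))) *
        val (slotAt b z (2 * (v * mR .P + k) + 1)) % m *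
        (u .iv * (u .r ^ tri (k + 1) % m) % m) % m)) ++ zeros ((mR .P + mR .R) * b))
    (by
      rintro v hv _ ⟨x, y, c, s, rfl⟩
      rw [XP.eval_seq, XP.eval_cp, XP.eval_seq, XP.eval_cp, XP.eval_seq]
      dsimp only
      simp only [reg_us, reg_uc, reg_r, reg_iv]
      obtain ⟨x2, y2, c2, s2, h2⟩ := eval_pre2Row (L := L) hm u hr hi hb hv hz hs
        (update (fun _ => 0) .N v) (by simp)
        ((List.range v).flatMap fun v =>
          ((List.range (mR .P)).flatMap fun k => bits b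
            (val (slotAt b z (2 * (v * mR .P + k))) *
              val (slotAt b z (2 * (v * mR .P + k) + 1)) % m *
              (u .iv * (u .r ^ tri (k + 1) % m) % m) % m)) ++
              zeros ((mR .P + mR .R) * b)) x y
      refine ⟨reg u x2 y2 c2 s2, ⟨x2, y2, c2, s2, rfl⟩, ?_⟩
      rw [h2, eval_zerX _ (by simpa using ho) _ (by simp) (by simp), flatMap_range_succ,
        List.append_assoc])
    u ⟨u .x, u .y, u .c, u .s, (reg_self u).symm⟩
  refine ⟨x', fun i hi => by rw [hx', reg_out _ _ _ _ _ hi], ?_⟩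
  simpa [pre2X, pre2B, stepX, zerX] using h

end Vale.Agent.P338.R2.H321.Bp
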