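import Vale.Agent.P338.R2.H321.Bp.Elem

/-!
P338, stage 3: evaluation of the program of the kernel.
-/

namespace Vale.Agent.P338.R2.H321.Bp

open H778 (val bits slots)
open H525 (slotAt zeros)
open H525.Fp (tri mmN)
open H784.Bp
open H898 hiding val
open H898.XP
open Function (update)

variable {b L m : ℕ} {mR : ER → ℕ} {z : List Bool}

/-- The multipliers. -/
def sN (P m r ri u : ℕ) : ℕ := (if u + 1 ≤ P then r ^ (P - 1 - u) else ri ^ (u + 1 - P)) % m

section num

variable {P r ri : ℕ}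

theorem cancel_pow (h : r * ri % m = 1 % m) (a k : ℕ) :
    ri ^ (a + k) % m * (r ^ k % m) % m = ri ^ a % m := by
  rw [← Nat.mul_mod]
  have h1 : r * ri ≡ 1 [MOD m] := h
  have h2 : ri ^ (a + k) * r ^ k = ri ^ a * (r * ri) ^ k := by
    rw [pow_add, mul_pow]
    ring
  rw [h2]
  have h3 : ri ^ a * (r * ri) ^ k ≡ ri ^ a * 1 ^ k [MOD m] := (h1.pow k).mul_left _
  rw [one_pow, mul_one] at h3
  exact h3

theorem cancel_one (h : r * ri % m = 1 % m) (a : ℕ) :
    r ^ (a + 1) % m * ri % m = r ^ a % m := by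
  rw [Nat.mod_mul_mod]
  have h1 : r * ri ≡ 1 [MOD m] := h
  have h2 : r ^ (a + 1) * ri = r ^ a * (r * ri) := by ring
  rw [h2]
  have h3 : r ^ a * (r * ri) ≡ r ^ a * 1 [MOD m] := h1.mul_left _
  rw [mul_one] at h3
  exact h3

theorem kerN_succ (h : r * ri % m = 1 % m) (u : ℕ) :
    kerN P m ri u * sN P m r ri u % m = kerN P m ri (u + 1) := by
  unfold kerN sN tz
  by_cases h1 : u + 1 ≤ P
  · rw [if_pos h1, if_pos h1]
    obtain ⟨k, hk⟩ : ∃ k, P = u + 1 + k := ⟨P - (u + 1), by omega⟩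
    subst hk
    rw [show u + 1 + k - u = k + 1 by omega, show u + 1 + k - 1 - u = k by omega, tri_succ,
      cancel_pow h]
    by_cases h2 : u + 1 + 1 ≤ u + 1 + k
    · rw [if_pos h2, show u + 1 + k - (u + 1) = k by omega]
    · rw [if_neg h2]
      have : k = 0 := by omega
      subst this
      rw [show u + 1 + 1 - (u + 1 + 0) = 1 by omega]
      rfl
  · rw [if_neg h1, if_neg h1, if_neg (by omega), pow_step]
    obtain ⟨k, hk⟩ : ∃ k, u + 1 = P + k := ⟨u + 1 - P, by omega⟩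
    rw [show u + 1 - P = k by omega, show u + 1 + 1 - P = k + 1 by omega, tri_succ]

theorem sN_succ (h : r * ri % m = 1 % m) (u : ℕ) :
    sN P m r ri u * ri % m = sN P m r ri (u + 1) := by
  unfold sN
  by_cases h1 : u + 1 ≤ P
  · rw [if_pos h1]
    by_cases h2 : u + 1 + 1 ≤ P
    · rw [if_pos h2, show P - 1 - u = (P - 1 - (u + 1)) + 1 by omega, cancel_one h]
    · rw [if_neg h2, show P - 1 - u = 0 by omega, show u + 1 + 1 - P = 1 by omega, pow_zero,
        Nat.mod_mul_mod, one_mul, pow_one]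
  · rw [if_neg h1, if_neg (by omega), Nat.mod_mul_mod, ← pow_succ,
      show u + 1 + 1 - P = u + 1 - P + 1 by omega]

theorem sN_zero (h : r * ri % m = 1 % m) : r ^ P % m * ri % m = sN P m r ri 0 := by
  unfold sN
  cases P with
  | zero =>
    rw [if_neg (by omega), pow_zero, Nat.mod_mul_mod, one_mul]
    simp
  | succ P =>
    rw [if_pos (by omega), cancel_one h]
    congr 2

theorem kerN_zero : ri ^ tri P % m = kerN P m ri 0 := by
  unfold kerN tz
  cases P with
  | zero =>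
    rw [if_neg (by omega)]
    rfl
  | succ P =>
    rw [if_pos (by omega)]
    rfl

end num

/-- The steps of the kernel. -/
theorem eval_kerLoop (hm : 1 < m) (hb : m * m * m < 2 ^ b) (u : EV → ℕ) (hri : u .ri < m)
    (h1 : u .r * u .ri % m = 1) (P d : ℕ) (ρ : ER) (v : ER → ℕ) (hv : v ρ = 0) (q : ℕ)
    (o : List Bool) (x y : ℕ) :
    eval mR z false (wsem b L m (2 ^ b / m + 1)) (loop ρ kerS)
      ⟨v, q, o, reg u x y (kerN P m (u .ri) d) (sN P m (u .r) (u .ri) d)⟩ =
    ⟨v, q, o ++ (List.range (mR ρ)).flatMap (fun i => bits b (kerN P m (u .ri) (d + i))),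
      reg u x y (kerN P m (u .ri) (d + mR ρ)) (sN P m (u .r) (u .ri) (d + mR ρ))⟩ := by
  have hm1 : 1 ≤ m := hm.le
  have h1' : u .r * u .ri % m = 1 % m := by rw [h1, Nat.mod_eq_of_lt hm]
  have hk : ∀ j, kerN P m (u .ri) j < m := fun j => Nat.mod_lt _ (by omega)
  have hs : ∀ j, sN P m (u .r) (u .ri) j < m := fun j => Nat.mod_lt _ (by omega)
  have := XP.eval_loop_v (m := mR) (w := z) (e := false)
    (S := wsem b L m (2 ^ b / m + 1)) (r := ρ) (a := kerS) v hv (fun _ => q)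
    (fun i => o ++ (List.range i).flatMap (fun i => bits b (kerN P m (u .ri) (d + i))))
    (fun i => reg u x y (kerN P m (u .ri) (d + i)) (sN P m (u .r) (u .ri) (d + i))) (by
      intro i _
      rw [kerS, XP.eval_seq, XP.eval_wr, XP.eval_seq, XP.eval_mul, XP.eval_mul]
      dsimp only
      simp only [reg_uc, reg_us, reg_c, reg_s, reg_ri]
      rw [mm' hm1 hb (hk _).le (hs _).le, mm' hm1 hb (hs _).le hri.le, kerN_succ h1',
        sN_succ h1', List.append_assoc]
      congr 2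
      rw [List.range_succ, List.flatMap_append]
      simp)
  simpa using this

/-- **The kernel.** -/
theorem eval_kerX (hm : 1 < m) (hb : m * m * m < 2 ^ b) (u : EV → ℕ) (hr : u .r < m)
    (hri : u .ri < m) (h1 : u .r * u .ri % m = 1) :
    ∃ u1, (∀ i, i ∉ scE → u1 i = u i) ∧
      eval mR z false (wsem b L m (2 ^ b / m + 1)) kerX ⟨fun _ => 0, 0, [], u⟩ =
        ⟨fun _ => 0, 0, kerB b (mR .P) (mR .R) m (u .ri), u1⟩ := by
  have hm1 : 1 ≤ m := hm.le
  have h1' : u .r * u .ri % m = 1 % m := by rw [h1, Nat.mod_eq_of_lt hm]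
  have hlt : ∀ k, k % m < m := fun k => Nat.mod_lt _ (by omega)
  have hfirst := XP.eval_loop_v (m := mR) (w := z) (e := false)
    (S := wsem b L m (2 ^ b / m + 1)) (r := .P)
    (a := seq (ext (.mul .c .c .x)) (seq (ext (.mul .x .x .ri)) (ext (.mul .s .s .r))))
    (fun _ => 0) rfl (fun _ => 0) (fun _ => [])
    (fun i => reg u (u .ri ^ i % m) (u .y) (u .ri ^ tri i % m) (u .r ^ i % m)) (by
      intro i _
      rw [XP.eval_seq, XP.eval_mul, XP.eval_seq, XP.eval_mul, XP.eval_mul]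
      dsimp only
      simp only [reg_ux, reg_uc, reg_us, reg_x, reg_c, reg_s, reg_r, reg_ri]
      rw [mm' hm1 hb (hlt _).le (hlt _).le, mm' hm1 hb (hlt _).le hri.le,
        mm' hm1 hb (hlt _).le hr.le, pow_step, ← tri_succ, Nat.mod_mul_mod, ← pow_succ,
        Nat.mod_mul_mod, ← pow_succ])
  refine ⟨reg u (u .ri ^ mR .P % m) (u .y) (kerN (mR .P) m (u .ri) (0 + mR .P + mR .R))
    (sN (mR .P) m (u .r) (u .ri) (0 + mR .P + mR .R)), fun i hi => reg_out _ _ _ _ _ hi, ?_⟩
  have hu : update (update (update u .c 1) .x 1) .s 1 =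
      reg u (u .ri ^ 0 % m) (u .y) (u .ri ^ tri 0 % m) (u .r ^ 0 % m) := by
    rw [tri_zero, pow_zero, pow_zero, Nat.mod_eq_of_lt hm]
    funext i
    cases i <;> rfl
  change eval mR z false (wsem b L m (2 ^ b / m + 1)) (seq (ext (.one .c)) (seq (ext (.one .x))
    (seq (ext (.one .s)) (seq
    (loop .P (seq (ext (.mul .c .c .x)) (seq (ext (.mul .x .x .ri)) (ext (.mul .s .s .r)))))
    (seq (ext (.mul .s .s .ri)) (seq (loop .P kerS) (loop .R kerS))))))) _ = _
  rw [XP.eval_seq, XP.eval_one, XP.eval_seq, XP.eval_one, XP.eval_seq, XP.eval_one,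
    XP.eval_seq]
  dsimp only
  rw [hu, hfirst, XP.eval_seq, XP.eval_mul, XP.eval_seq]
  dsimp only
  simp only [reg_us, reg_s, reg_ri]
  rw [mm' hm1 hb (hlt _).le hri.le, sN_zero h1', kerN_zero,
    eval_kerLoop hm hb u hri h1 (mR .P) 0 .P (fun _ => 0) rfl,
    eval_kerLoop hm hb u hri h1 (mR .P) (0 + mR .P) .R (fun _ => 0) rfl]
  congr 1
  unfold kerB slots
  rw [List.range_add, List.flatMap_append, List.flatMap_map]
  simp

end Vale.Agent.P338.R2.H321.Bp
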