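import Vale.Agent.P338.R2.H784.Bp.Ops
import Vale.Agent.P338.R2.H321.Bp.ElemEval
import Vale.Agent.P338.R2.H321.Bp.ElemKer
import Vale.Agent.P338.R2.H321.Bp.ElemCost
import Vale.Agent.P338.R2.H293.Bp.Batch

/-!
P338, stage 3, part A1: the element programs.
-/

namespace Vale.Agent.P338.R2.H321.Bp

open Vale.Agent.P338.R2.H898
open Vale.Agent.P338.R2.H968
open Vale.Agent.P338.R2.H784
open Vale.Agent.P338.R2.H784.Fp
open Vale.Agent.P338.R2.H784.Bp
open Vale.Agent.P338.R2.H968.CallEnv (mem0 callC)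
open Vale.Agent.P338.R2.H525 (dBits mulBits slotAt zeros)
open Vale.Agent.P338.R2.H778 (bits)
open Function (update)

/-! ### Numbers -/

section Num

variable {W n q om nu iv N : ℕ}

theorem wcost_le {A₀ : MTM} (h600 : ∀ n ≥ 1, mulTime A₀ n ≤ 600 * n ^ 2) (W : ℕ) :
    wcost A₀ (bB W) ≤ (3 * callC A₀ + 230) * 240400 * gB W ^ 2 := by
  unfold wcost bB
  have hg := H282.Bp.gB_pos W
  have h := h600 (20 * gB W) (by omega)
  have h2 : mulTime A₀ (20 * gB W) + 20 * gB W ≤ 240400 * gB W ^ 2 := by nlinarith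
  calc (3 * callC A₀ + 230) * (mulTime A₀ (20 * gB W) + 20 * gB W)
      ≤ (3 * callC A₀ + 230) * (240400 * gB W ^ 2) := Nat.mul_le_mul_left _ h2
    _ = _ := by ring

theorem one_le_wcost (A₀ : MTM) (W : ℕ) : 1 ≤ wcost A₀ (bB W) := by
  have h := le_wcost A₀ (bB W) (by have := H282.Bp.gB_pos W; unfold bB; omega)
  omega

theorem cost_le (hQ : Prm W q om nu iv) (hN : 1 ≤ N) {P R c K x : ℕ}
    (hA : 2 * P + R ≤ 10 * dB W) (hc : c ≤ K * gB W ^ 2)
    (hx : x ≤ 20 * (N * (2 * P + R)) * c + 20 * c) :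
    x + 5 * (4 * bB W + 4) + 4 ≤ (420 * K + 424) * (n + N * W * gB W) := by
  have hg := H282.Bp.gB_pos W
  have h1 := H293.Bp.gd_le hQ.hW
  have h2 := H293.Bp.gB_le hQ.hW
  have hW : W * gB W ≤ N * W * gB W := Nat.mul_le_mul_right _ (Nat.le_mul_of_pos_left _ hN)
  have e1 : 20 * (N * (2 * P + R)) * c ≤ 400 * K * (N * W * gB W) := by
    calc 20 * (N * (2 * P + R)) * c ≤ 20 * (N * (10 * dB W)) * (K * gB W ^ 2) :=
          Nat.mul_le_mul (Nat.mul_le_mul_left _ (Nat.mul_le_mul_left _ hA)) hc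
      _ = 200 * K * (N * (gB W * dB W) * gB W) := by ring
      _ ≤ 200 * K * (N * (2 * W) * gB W) :=
          Nat.mul_le_mul_left _ (Nat.mul_le_mul_right _ (Nat.mul_le_mul_left _ h1))
      _ = _ := by ring
  have e2 : 20 * c ≤ 20 * K * (N * W * gB W) := by
    calc 20 * c ≤ 20 * (K * gB W ^ 2) := Nat.mul_le_mul_left _ hc
      _ = 20 * K * (gB W * gB W) := by ring
      _ ≤ 20 * K * (W * gB W) := Nat.mul_le_mul_left _ (Nat.mul_le_mul_right _ h2)
      _ ≤ _ := Nat.mul_le_mul_left _ hW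
  have e3 : 5 * (4 * bB W + 4) + 4 ≤ 424 * (N * W * gB W) := by
    have : gB W ≤ W * gB W := Nat.le_mul_of_pos_left _ (by omega)
    unfold bB
    omega
  calc x + 5 * (4 * bB W + 4) + 4
      ≤ 400 * K * (N * W * gB W) + 20 * K * (N * W * gB W) + 424 * (N * W * gB W) := by omega
    _ = (420 * K + 424) * (N * W * gB W) := by ring
    _ ≤ _ := Nat.mul_le_mul_left _ (by omega)

theorem m3_lt (hQ : Prm W q om nu iv) : q ^ 4 * q ^ 4 * q ^ 4 < 2 ^ bB W := by
  have h := H282.Bp.m_le hQ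
  have hg := H282.Bp.gB_pos W
  calc q ^ 4 * q ^ 4 * q ^ 4
      ≤ 2 ^ (4 * gB W) * 2 ^ (4 * gB W) * 2 ^ (4 * gB W) :=
        Nat.mul_le_mul (Nat.mul_le_mul h h) h
    _ = 2 ^ (12 * gB W) := by rw [← pow_add, ← pow_add]; ring_nf
    _ < 2 ^ bB W := Nat.pow_lt_pow_right (by norm_num) (by unfold bB; omega)

theorem m_lt (hQ : Prm W q om nu iv) : q ^ 4 < 2 ^ bB W := by
  have h := H282.Bp.m_pos hQ
  have h3 := m3_lt hQ
  have h1 : q ^ 4 ≤ q ^ 4 * q ^ 4 := Nat.le_mul_of_pos_left _ h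
  have h2 : q ^ 4 * q ^ 4 ≤ q ^ 4 * q ^ 4 * q ^ 4 := Nat.le_mul_of_pos_right _ h
  omega

theorem mum_lt (hQ : Prm W q om nu iv) : 2 ^ bB W / q ^ 4 + 1 < 2 ^ bB W := by
  have h1 := H282.Bp.one_lt_m hQ
  have h2 := m_lt hQ
  have h3 : 2 ^ bB W / q ^ 4 ≤ 2 ^ bB W / 2 := Nat.div_le_div_left h1 (by norm_num)
  omega

theorem mE_pos (hQ : Prm W q om nu iv) (hN : 1 ≤ N) (f : Bool) (r : ER) :
    0 < mE W n q N f r := by
  have h1 := H282.Bp.one_le_dB W
  have h2 := H282.Bp.two_lt_q hQ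
  cases r <;> cases f <;> simp only [mE, rV, rP, rR] <;> omega

theorem val_lt3 (hQ : Prm W q om nu iv) {x : ℕ} (hx : x < q ^ 4) :
    x * q ^ 4 * q ^ 4 < 2 ^ bB W :=
  lt_of_le_of_lt (Nat.mul_le_mul_right _ (Nat.mul_le_mul_right _ hx.le)) (m3_lt hQ)

theorem r_lt (hQ : Prm W q om nu iv) (f : Bool) : uE om nu iv f .r < q ^ 4 := by
  cases f
  · exact hQ.nu_lt
  · exact hQ.om_lt

theorem ri_lt (hQ : Prm W q om nu iv) (f : Bool) : uE om nu iv f .ri < q ^ 4 := by
  cases f
  · exact hQ.om_lt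
  · exact hQ.nu_lt

theorem r_ri (hQ : Prm W q om nu iv) (f : Bool) :
    uE om nu iv f .r * uE om nu iv f .ri % q ^ 4 = 1 := by
  cases f
  · exact H282.Bp.nu_mul_om hQ
  · exact hQ.om_nu

theorem sz_le (hQ : Prm W q om nu iv) (f : Bool) : 2 * pE W q f + nE W q f ≤ 10 * dB W := by
  have h1 := hQ.hq2
  cases f <;> simp only [pE, nE] <;> omega

theorem mE_P (f : Bool) : mE W n q N f .P = pE W q f := by cases f <;> rfl
theorem mE_R (f : Bool) : mE W n q N f .R = nE W q f := by cases f <;> rfl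

end Num

/-! ### The programs -/

variable {A A₀ : MTM} {Y : Type} [DecidableEq (LG A.Tape A₀.Tape Y)] [DecidableEq (Al A A₀)]

/-- The element programs. -/
noncomputable def eX (A A₀ : MTM) (Y : Type) [DecidableEq (Al A A₀)] : EP A A₀ Y where
  pre := eP A A₀ (ng .t) (og .opX) true preX
  ker f := eP A A₀ (ng .t) (og .opY) f kerX
  post f v := eP A A₀ (og .res) (ng v) f postX
  pre2 := eP A A₀ (ng .t) (og .opX) false pre2X

/-- The constant. -/
noncomputable def cX (A₀ : MTM) : ℕ := 420 * ((3 * callC A₀ + 230) * 240400) + 424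

theorem eX_ok (hS : Multiplies A₀) (h600 : ∀ n ≥ 1, mulTime A₀ n ≤ 600 * n ^ 2) :
    EOk (eX A A₀ Y) (cX A₀) gB := by
  refine ⟨?_, ?_, ?_, ?_⟩
  · intro W n q om nu iv N S B w hI hB hX hw hs
    have hQ := hI.prm
    have h := run_eP (Y := Y) (A := A) (fi := ng .t) (fo := og .opX) (om := om) (nu := nu) (iv := iv)
      (n := n) (N := N) (q := q) (W := W) hS rfl rfl (by simp) true (a := preX) preX_wf
      (by unfold bB; omega) (by have := H282.Bp.gB_pos W; unfold bB; omega) (m_lt hQ)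
      (mum_lt hQ) (mE_pos hQ hI.hN true) S B hI.r hI.w w
      (preB (bB W) (dB W) (q - 1) (q ^ 4) om N w) hB hX (by
        obtain ⟨u1, h1, h2⟩ := eval_preX (mR := mE W n q N true) (b := bB W) (L := gB W) (z := w)
          (H282.Bp.one_lt_m hQ) (m3_lt hQ) (uE om nu iv true) (r_lt hQ true) rfl (by
            rw [hw]; exact le_rfl) (fun t ht => val_lt3 hQ (hs t ht))
        exact ⟨_, u1, h1, h2⟩)
    rw [z2_opX] at h
    refine h.mono (cost_le hQ hI.hN (sz_le hQ true) (wcost_le h600 W)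
      (bd_preX (mR := mE W n q N true) _ (one_le_wcost A₀ W) ?_))
    have := H282.Bp.one_le_dB W
    show 1 ≤ 2 * dB W + (q - 1)
    omega
  · intro W n q om nu iv N S B f hI hB hY
    have hQ := hI.prm
    have h := run_eP (Y := Y) (A := A) (fi := ng .t) (fo := og .opY) (om := om) (nu := nu) (iv := iv)
      (n := n) (N := N) (q := q) (W := W) hS rfl rfl (by simp) f (a := kerX) kerX_wf
      (by unfold bB; omega) (by have := H282.Bp.gB_pos W; unfold bB; omega) (m_lt hQ)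
      (mum_lt hQ) (mE_pos hQ hI.hN f) S B hI.r hI.w []
      (kerB (bB W) (pE W q f) (nE W q f) (q ^ 4) (if f then nu else om)) hB hY (by
        obtain ⟨u1, h1, h2⟩ := eval_kerX (mR := mE W n q N f) (b := bB W) (L := gB W) (z := [])
          (H282.Bp.one_lt_m hQ) (m3_lt hQ) (uE om nu iv f) (r_lt hQ f) (ri_lt hQ f) (r_ri hQ f)
        rw [mE_P, mE_R] at h2
        exact ⟨_, u1, h1, h2⟩)
    rw [z2_opY] at h
    have hb := bd_kerX (mR := mE W n q N f) _ (one_le_wcost A₀ W)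
    rw [mE_P, mE_R] at hb
    refine h.mono (cost_le (P := pE W q f) (R := nE W q f) hQ hI.hN (sz_le hQ f) (wcost_le h600 W)
      (hb.trans ?_))
    have h5 : 20 * (2 * pE W q f + nE W q f) * wcost A₀ (bB W) ≤
        20 * (N * (2 * pE W q f + nE W q f)) * wcost A₀ (bB W) :=
      Nat.mul_le_mul_right _ (Nat.mul_le_mul_left _ (Nat.le_mul_of_pos_left _ hI.hN))
    omega
  · intro W n q om nu iv N S B w f v hI hv hB hR hw hs
    have hQ := hI.prm
    have h := run_eP (Y := Y) (A := A) (fi := og .res) (fo := ng v) (om := om) (nu := nu) (iv := iv)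
      (n := n) (N := N) (q := q) (W := W) hS rfl (by cases v <;> first | rfl | simp [wk] at hv)
      (by simp) f (a := postX) postX_wf
      (by unfold bB; omega) (by have := H282.Bp.gB_pos W; unfold bB; omega) (m_lt hQ)
      (mum_lt hQ) (mE_pos hQ hI.hN f) S B hI.r hI.w w
      (postB (bB W) (pE W q f) (nE W q f) (q ^ 4) (if f then om else nu) N w) hR
      (by rw [z2_get hv, hB]) (by
        obtain ⟨u1, h1, h2⟩ := eval_postX (mR := mE W n q N f) (b := bB W) (L := gB W) (z := w)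
          (H282.Bp.one_lt_m hQ) (m3_lt hQ) (uE om nu iv f) (r_lt hQ f) (by
            rw [mE_P, mE_R, hw]
            have h1 := H293.Bp.size_le hQ hI.hn (sz_le hQ f)
            rw [mul_comm (bB W)] at h1
            show N * (2 * pE W q f + nE W q f) * bB W ≤ 2 * n
            omega) (by
            rw [mE_P, mE_R]
            exact hs)
        rw [mE_P, mE_R] at h2
        exact ⟨_, u1, h1, h2⟩)
    rw [z2_set hv] at h
    refine h.mono (cost_le (P := pE W q f) (R := nE W q f) hQ hI.hN (sz_le hQ f) (wcost_le h600 W)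
      ?_)
    have hb := bd_postX (mR := mE W n q N f) _ (one_le_wcost A₀ W) (by
      rw [mE_P, mE_R]
      have := mE_pos (n := n) hQ hI.hN f .P
      rw [mE_P] at this
      omega)
    rw [mE_P, mE_R] at hb
    exact hb
  · intro W n q om nu iv N S B w hI hB hX hw hs
    have hQ := hI.prm
    have h := run_eP (Y := Y) (A := A) (fi := ng .t) (fo := og .opX) (om := om) (nu := nu) (iv := iv)
      (n := n) (N := N) (q := q) (W := W) hS rfl rfl (by simp) false (a := pre2X) pre2X_wf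
      (by unfold bB; omega) (by have := H282.Bp.gB_pos W; unfold bB; omega) (m_lt hQ)
      (mum_lt hQ) (mE_pos hQ hI.hN false) S B hI.r hI.w w
      (pre2B (bB W) (q - 1) (2 * dB W - 1) (q ^ 4) nu iv N w) hB hX (by
        obtain ⟨u1, h1, h2⟩ := eval_pre2X (mR := mE W n q N false) (b := bB W) (L := gB W) (z := w)
          (H282.Bp.one_lt_m hQ) (m3_lt hQ) (uE om nu iv false) (r_lt hQ false) hQ.iv_lt rfl (by
            rw [hw]; exact le_rfl) (fun t ht => (hs t ht).le)
        exact ⟨_, u1, h1, h2⟩)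
    rw [z2_opX] at h
    refine h.mono (cost_le hQ hI.hN (sz_le hQ false) (wcost_le h600 W)
      (bd_pre2X (mR := mE W n q N false) _ (one_le_wcost A₀ W) ?_))
    have := H282.Bp.one_le_dB W
    show 1 ≤ 2 * (q - 1) + (2 * dB W - 1)
    omega

end Vale.Agent.P338.R2.H321.Bp
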