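import Vale.Agent.P338.R2.H898.XWord
import Vale.Agent.P338.R2.H101.FpNum
import Vale.Agent.P338.R2.H784.Bp.Elt

/-!
P338, stage 3: the passes on the elements of the ring, as loop programs with word registers.
-/

namespace Vale.Agent.P338.R2.H321.Bp

open H778 (val bits slots)
open H525 (slotAt zeros)
open H525.Fp (tri mmN)
open H784.Bp
open H898 hiding val
open H898.XP
open Function (update)

section rule

variable {F α J σ : Type} [DecidableEq F] {m : F → ℕ} {w : List α} {e : α} {S : XSem α J σ}

/-- Rule for loops: the extra state is described by a predicate. -/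
theorem eval_loop_ex {r : F} {a : XP F α J} (v : F → ℕ) (hv : v r = 0) (X : ℕ → σ → Prop)
    (q : ℕ → ℕ) (o : ℕ → List α)
    (step : ∀ i < m r, ∀ x, X i x → ∃ x', X (i + 1) x' ∧
      eval m w e S a ⟨update v r i, q i, o i, x⟩ =
        ⟨update v r i, q (i + 1), o (i + 1), x'⟩) (x : σ) (hx : X 0 x) :
    ∃ x', X (m r) x' ∧ eval m w e S (loop r a) ⟨v, q 0, o 0, x⟩ = ⟨v, q (m r), o (m r), x'⟩ := by
  have key : ∀ i ≤ m r, ∃ x', X i x' ∧
      (fun s => (eval m w e S a s).set r ((eval m w e S a s).v r + 1))^[i]
        (⟨v, q 0, o 0, x⟩ : XS F α σ) = ⟨update v r i, q i, o i, x'⟩ := by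
    intro i
    induction i with
    | zero =>
      intro _
      refine ⟨x, hx, ?_⟩
      have hu : update v r 0 = v := by
        rw [← hv]
        exact Function.update_eq_self r v
      simp only [Function.iterate_zero, id_eq]
      rw [hu]
    | succ i ih =>
      intro hi
      obtain ⟨x1, hx1, h1⟩ := ih (by omega)
      obtain ⟨x2, hx2, h2⟩ := step i (by omega) x1 hx1
      refine ⟨x2, hx2, ?_⟩
      rw [Function.iterate_succ_apply', h1, h2]
      simp [XS.set]
  obtain ⟨x', hx', h⟩ := key _ le_rfl
  refine ⟨x', hx', ?_⟩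
  rw [eval]
  rw [show (⟨v, q 0, o 0, x⟩ : XS F α σ).v r = 0 from hv, Nat.sub_zero, h]
  simp only [XS.set, Function.update_idem, XS.mk.injEq, and_true]
  rw [← hv]
  exact Function.update_eq_self r v

end rule

/-- `(P + R)` zeros. -/
def zerX : XP ER Bool (WI EV) := seq (loop .P (ext (.wr .o))) (loop .R (ext (.wr .o)))

/-- The step of the kernel. -/
def kerS : XP ER Bool (WI EV) :=
  seq (ext (.wr .c)) (seq (ext (.mul .c .c .s)) (ext (.mul .s .s .ri)))

theorem scE_nodup : scE.Nodup := by decide

theorem preX_wf : preX.WF := by decide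
theorem kerX_wf : kerX.WF := by decide
theorem postX_wf : postX.WF := by decide
theorem pre2X_wf : pre2X.WF := by decide

theorem preX_uses : preX.uses = {.P, .R, .N} := by decide
theorem kerX_uses : kerX.uses = {.P, .R} := by decide
theorem postX_uses : postX.uses = {.P, .R, .N} := by decide
theorem pre2X_uses : pre2X.uses = {.P, .R, .N} := by decide

/-- The values of the registers. -/
def reg (u : EV → ℕ) (x y c s : ℕ) : EV → ℕ
  | .r => u .r
  | .ri => u .ri
  | .iv => u .iv
  | .x => x
  | .y => y
  | .c => c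
  | .s => s
  | .o => u .o

section regs

variable (u : EV → ℕ) (x y c s a : ℕ)

theorem reg_self : reg u (u .x) (u .y) (u .c) (u .s) = u := by
  funext i
  cases i <;> rfl

theorem reg_ux : update (reg u x y c s) .x a = reg u a y c s := by
  funext i
  cases i <;> rfl

theorem reg_uy : update (reg u x y c s) .y a = reg u x a c s := by
  funext i
  cases i <;> rfl

theorem reg_uc : update (reg u x y c s) .c a = reg u x y a s := by
  funext i
  cases i <;> rfl

theorem reg_us : update (reg u x y c s) .s a = reg u x y c a := by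
  funext i
  cases i <;> rfl

@[simp] theorem reg_r : reg u x y c s .r = u .r := rfl
@[simp] theorem reg_ri : reg u x y c s .ri = u .ri := rfl
@[simp] theorem reg_iv : reg u x y c s .iv = u .iv := rfl
@[simp] theorem reg_x : reg u x y c s .x = x := rfl
@[simp] theorem reg_y : reg u x y c s .y = y := rfl
@[simp] theorem reg_c : reg u x y c s .c = c := rfl
@[simp] theorem reg_s : reg u x y c s .s = s := rfl
@[simp] theorem reg_o : reg u x y c s .o = u .o := rfl

/-- Outside the scratch registers nothing changes. -/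
theorem reg_out {i : EV} (hi : i ∉ scE) : reg u x y c s i = u i := by
  cases i <;> simp [scE] at hi <;> rfl

end regs

theorem tri_succ (i : ℕ) : tri (i + 1) = tri i + i := by
  unfold tri
  rw [show (i + 1) * (i + 1 - 1) = i * (i - 1) + i * 2 by
    cases i with
    | zero => rfl
    | succ j =>
      rw [show j + 1 + 1 - 1 = j + 1 by omega, show j + 1 - 1 = j by omega]
      ring]
  rw [Nat.add_mul_div_right _ _ (by norm_num)]

theorem tri_zero : tri 0 = 0 := rfl
theorem tri_one : tri 1 = 0 := rfl

variable {b L m : ℕ} {mR : ER → ℕ} {z : List Bool}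

/-- Small products are computed exactly. -/
theorem mm {x y : ℕ} (hm : 1 ≤ m) (h : x * m * m < 2 ^ b) (hy : y ≤ m) :
    mmN b m (2 ^ b / m + 1) x y = x * y % m := by
  apply H101.FpNum.mmN_eq hm
  calc x * y * m ≤ x * m * m := by gcongr
    _ < 2 ^ b := h

theorem mm' {x y : ℕ} (hm : 1 ≤ m) (h : m * m * m < 2 ^ b) (hx : x ≤ m) (hy : y ≤ m) :
    mmN b m (2 ^ b / m + 1) x y = x * y % m := by
  apply mm hm _ hy
  calc x * m * m ≤ m * m * m := by gcongr
    _ < 2 ^ b := h

theorem pow_step (r a c : ℕ) : r ^ a % m * (r ^ c % m) % m = r ^ (a + c) % m := by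
  rw [← Nat.mul_mod, pow_add]

/-- The zeros. -/
theorem eval_zerX (u : EV → ℕ) (ho : u .o = 0) (v : ER → ℕ) (hP : v .P = 0) (hR : v .R = 0)
    (q : ℕ) (o : List Bool) :
    eval mR z false (wsem b L m (2 ^ b / m + 1)) zerX ⟨v, q, o, u⟩ =
      ⟨v, q, o ++ zeros ((mR .P + mR .R) * b), u⟩ := by
  have h1 : ∀ (r : ER) (o : List Bool) (v : ER → ℕ), v r = 0 →
      eval mR z false (wsem b L m (2 ^ b / m + 1)) (loop r (ext (.wr .o))) ⟨v, q, o, u⟩ =
      ⟨v, q, o ++ zeros (mR r * b), u⟩ := by
    intro r o v hv
    have := XP.eval_loop_v (m := mR) (w := z) (e := false)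
      (S := wsem b L m (2 ^ b / m + 1)) (r := r) (a := ext (.wr .o)) v hv (fun _ => q)
      (fun i => o ++ zeros (i * b)) (fun _ => u) (by
        intro i _
        rw [XP.eval_wr]
        dsimp only
        rw [ho, H778.bits_zero, List.append_assoc]
        congr 2
        unfold zeros
        rw [← List.replicate_add]
        congr 1
        ring)
    simpa [zeros] using this
  rw [zerX, XP.eval_seq, h1 .P o v hP, h1 .R _ v hR, List.append_assoc]
  congr 2
  unfold zeros
  rw [← List.replicate_add]
  congr 1
  ring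

end Vale.Agent.P338.R2.H321.Bp
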